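import Vale.Agent.P262.Signs
import Vale.Agent.P262.Chob

namespace Vale.Agent.Results.P262.PrefixSteinitz

open Vale.Agent.P262

theorem result : ∃ C : ℝ, ∀ d : ℕ, 1 ≤ d →
    (∀ (N : ℕ) (v : Fin N → EuclideanSpace ℝ (Fin d)), (∀ i, ‖v i‖ ≤ 1) →
      ∃ ε : Fin N → ℝ, (∀ i, ε i = 1 ∨ ε i = -1) ∧
        ∀ k : ℕ, ‖∑ i : Fin N with i.val < k, ε i • v i‖ ≤ C * Real.sqrt d) ∧
    (∀ (N : ℕ) (v : Fin N → EuclideanSpace ℝ (Fin d)), (∀ i, ‖v i‖ ≤ 1) → ∑ i, v i = 0 →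
      ∃ π : Equiv.Perm (Fin N),
        ∀ k : ℕ, ‖∑ i : Fin N with i.val < k, v (π i)‖ ≤ C * Real.sqrt d) := by
  refine ⟨2 ^ 49, fun d _ => ?_⟩
  have key : ∀ (N : ℕ) (v : Fin N → EuclideanSpace ℝ (Fin d)), (∀ i, ‖v i‖ ≤ 1) →
      ∃ ε : Fin N → ℝ, (∀ i, ε i = 1 ∨ ε i = -1) ∧
        ∀ k : ℕ, ‖∑ i : Fin N with i.val < k, ε i • v i‖ ≤ 2 ^ 49 * Real.sqrt d := by
    intro N v hv
    obtain ⟨ε, e1, e2⟩ := signs N (fun k => if h : k < N then v ⟨k, h⟩ else 0) fun k => by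
      split_ifs
      · exact hv _
      · simp
    refine ⟨fun i => ε i, fun i => e1 i i.2, fun k => ?_⟩
    have h1 := e2 (min k N) (min_le_right _ _)
    rw [finrank_euclideanSpace_fin] at h1
    refine le_of_eq_of_le (congrArg _ ?_) h1
    have h2 : Finset.range (min k N) = (Finset.range N).filter (· < k) := by
      ext i; simp only [Finset.mem_range, Finset.mem_filter]; omega
    rw [h2, Finset.sum_filter, Finset.sum_filter, Finset.sum_range]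
    simp
  exact ⟨key, fun N v hv h0 => chob v h0 fun π => key N (fun i => v (π i)) fun i => hv _⟩

end Vale.Agent.Results.P262.PrefixSteinitz
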